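import Vale.Agent.P065.H859.Expo
import Vale.Agent.P065.H882.KDep

/-!
# P065: bands of consecutive levels (helper51)

The edges whose level lies in a band `[a, b)` are counted window by window: the time is cut into
windows in which the two levels bounding the band touch few points.
-/

set_option autoImplicit false

namespace Vale.Agent.N065

open Finset Vale.Agent.P065 Vale.Agent.P065.UB Vale.Agent.P065.H859 Vale.Agent.P065.H882

open Classical in
/-- the edges of `P` whose level lies in `[a, b)` -/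
noncomputable def Bd (P : Finset Pt) (a b : ℕ) : Finset (Pt × Pt) := (Ico a b).biUnion (Ed P)

theorem mem_Bd {P : Finset Pt} {a b : ℕ} {e : Pt × Pt} :
    e ∈ Bd P a b ↔ ∃ i, a ≤ i ∧ i < b ∧ e ∈ Ed P i := by
  classical
  unfold Bd
  rw [mem_biUnion]
  constructor
  · rintro ⟨i, hi, he⟩
    rw [mem_Ico] at hi
    exact ⟨i, hi.1, hi.2, he⟩
  · rintro ⟨i, h1, h2, he⟩
    exact ⟨i, mem_Ico.2 ⟨h1, h2⟩, he⟩

theorem card_Bd (P : Finset Pt) (a b : ℕ) : #(Bd P a b) = ∑ i ∈ Ico a b, #(Ed P i) := by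
  classical
  unfold Bd
  rw [Finset.card_biUnion]
  intro i _ j _ hij
  rw [Function.onFun, Finset.disjoint_left]
  intro e h1 h2
  exact hij ((card_bel h1).symm.trans (card_bel h2))

theorem gp_inj {P : Finset Pt} (hP : Good P) (m : ℝ) {v w : Pt} (hv : v ∈ P) (hw : w ∈ P)
    (h : gp P m v = gp P m w) : v = w := by
  rcases lt_trichotomy (ht m v) (ht m w) with h1 | h1 | h1
  · have := gp_lt_of hP hw hv (Or.inl h1)
    omega
  · rcases lt_trichotomy v.1 w.1 with h2 | h2 | h2
    · have := gp_lt_of hP hv hw (Or.inr ⟨h1.symm, h2⟩)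
      omega
    · exact hP.xinj v hv w hw h2
    · have := gp_lt_of hP hw hv (Or.inr ⟨h1, h2⟩)
      omega
  · have := gp_lt_of hP hv hw (Or.inl h1)
    omega

open Classical in
theorem card_gp_band {P : Finset Pt} (hP : Good P) (m : ℝ) (a b : ℕ) :
    #{v ∈ P | a ≤ gp P m v ∧ gp P m v ≤ b} ≤ b + 1 - a := by
  rw [← Nat.card_Icc a b]
  refine Finset.card_le_card_of_injOn (fun v => gp P m v) ?_ ?_
  · intro v hv
    rw [Finset.mem_coe, mem_filter] at hv
    rw [Finset.mem_coe, mem_Icc]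
    exact hv.2
  · intro v hv w hw h
    rw [Finset.mem_coe, mem_filter] at hv hw
    exact gp_inj hP m hv.1 hw.1 h

/-- the edges of a band in one window -/
theorem window_band {P : Finset Pt} (hP : Good P) {a b : ℕ} {I : Set ℝ} (hI : I.OrdConnected)
    (E : Finset (Pt × Pt)) (hE : ∀ e ∈ E, e ∈ Bd P a b ∧ sl e.1 e.2 ∈ I) :
    #E ≤ (b + 1 - a + #(Tch P b P I) + #(Tch P (a - 1) P I)) ^ 2 := by
  classical
  rcases E.eq_empty_or_nonempty with h0 | hne
  · rw [h0, card_empty]
    exact Nat.zero_le _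
  obtain ⟨e1, he1, hmin⟩ := E.exists_min_image (fun e => sl e.1 e.2) hne
  set m1 := sl e1.1 e1.2 with hm1
  set B : Finset Pt := ({v ∈ P | a ≤ gp P m1 v ∧ gp P m1 v ≤ b} ∪ Tch P b P I) ∪
    Tch P (a - 1) P I with hB
  have key : ∀ t ∈ I, m1 ≤ t → ∀ v ∈ P, a ≤ gp P t v → gp P t v ≤ b → a ≤ gm P t v →
      gm P t v ≤ b → v ∈ B := by
    intro t ht h1 v hv g1 g2 g3 g4
    rw [hB, mem_union, mem_union, mem_filter]
    rcases h1.lt_or_eq with h2 | h2
    · by_cases h3 : gp P m1 v ≤ b
      · by_cases h4 : a ≤ gp P m1 v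
        · exact Or.inl (Or.inl ⟨hv, h4, h3⟩)
        · right
          obtain ⟨w, hw, hw1, hw2⟩ := exit_edge hP (k := a - 1) hv _ m1 t rfl h2 (by omega)
            (by omega)
          exact mem_Tch_self.2 ⟨(v, w), hw, hI.out (hE e1 he1).2 ht ⟨hw1.le, hw2.le⟩,
            Or.inl rfl⟩
      · left
        right
        obtain ⟨w, hw, hw1, hw2⟩ := enter_edge hP (k := b) hv _ m1 t rfl h2 (by omega) g4
        exact mem_Tch_self.2 ⟨(w, v), hw, hI.out (hE e1 he1).2 ht ⟨hw1.le, hw2.le⟩,
          Or.inr rfl⟩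
    · rw [← h2] at g1 g2
      exact Or.inl (Or.inl ⟨hv, g1, g2⟩)
  have hsub : E ⊆ B ×ˢ B := by
    intro e he
    obtain ⟨h1, h2⟩ := hE e he
    obtain ⟨i, hi1, hi2, h3⟩ := mem_Bd.1 h1
    have h4 := mem_Ed.1 h3
    have h5 := edge_left hP h3
    have h6 := edge_right hP h3
    exact mem_product.2 ⟨key _ h2 (hmin e he) _ h4.1 (by omega) (by omega) (by omega) (by omega),
      key _ h2 (hmin e he) _ h4.2.1 (by omega) (by omega) (by omega) (by omega)⟩
  have hcard : #B ≤ b + 1 - a + #(Tch P b P I) + #(Tch P (a - 1) P I) := by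
    refine (card_union_le _ _).trans (Nat.add_le_add_right ?_ _)
    exact (card_union_le _ _).trans (Nat.add_le_add_right (card_gp_band hP m1 a b) _)
  calc #E ≤ #(B ×ˢ B) := card_le_card hsub
    _ = #B ^ 2 := by rw [card_product, sq]
    _ ≤ _ := Nat.pow_le_pow_left hcard 2

/-- the edges of a band, in terms of the extremal function of the windows -/
theorem band_le {P : Finset Pt} (hP : Good P) (a b : ℕ) {W : ℕ} (hW : 2 ≤ W) {N : ℕ}
    (hN : #P ≤ N) : #(Bd P a b) ≤ (4 * F N (W + 1) + 1) * (b + 1 - a + 2 * W) ^ 2 := by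
  classical
  obtain ⟨q, c, I, c1, c2, c3, c4, -⟩ := exists_cut hP (k := b) hW _ Set.univ
    Set.ordConnected_univ le_rfl
  obtain ⟨q', c', I', d1, d2, d3, d4, -⟩ := exists_cut hP (k := a - 1) hW _ Set.univ
    Set.ordConnected_univ le_rfl
  have hq : q ≤ F N (W + 1) := by
    have := card_le_F hP (by omega) c4 hN
    rwa [card_range] at this
  have hq' : q' ≤ F N (W + 1) := by
    have := card_le_F hP (by omega) d4 hN
    rwa [card_range] at this
  have hmaps : Set.MapsTo (fun e : Pt × Pt => c (sl e.1 e.2) + c' (sl e.1 e.2))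
      (↑(Bd P a b) : Set (Pt × Pt)) (↑(range (4 * F N (W + 1) + 1)) : Set ℕ) := by
    intro e _
    rw [Finset.mem_coe, mem_range]
    have := c2 (sl e.1 e.2)
    have := d2 (sl e.1 e.2)
    simp only
    omega
  rw [Finset.card_eq_sum_card_fiberwise hmaps]
  calc ∑ s ∈ range (4 * F N (W + 1) + 1),
        #{e ∈ Bd P a b | c (sl e.1 e.2) + c' (sl e.1 e.2) = s}
      ≤ ∑ _s ∈ range (4 * F N (W + 1) + 1), (b + 1 - a + 2 * W) ^ 2 := by
        apply sum_le_sum
        intro s _
        rcases ({e ∈ Bd P a b | c (sl e.1 e.2) + c' (sl e.1 e.2) = s} :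
          Finset (Pt × Pt)).eq_empty_or_nonempty with h0 | ⟨e0, he0⟩
        · rw [h0, card_empty]
          exact Nat.zero_le _
        have h0 := (mem_filter.1 he0).2
        set J : Set ℝ := c ⁻¹' {c (sl e0.1 e0.2)} ∩ c' ⁻¹' {c' (sl e0.1 e0.2)} with hJ
        have hJc : J.OrdConnected :=
          ((Set.ordConnected_singleton).preimage_mono c1).inter
            ((Set.ordConnected_singleton).preimage_mono d1)
        refine (window_band hP (a := a) (b := b) hJc _ ?_).trans ?_
        · intro e he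
          obtain ⟨h1, h2⟩ := mem_filter.1 he
          refine ⟨h1, ?_⟩
          rw [hJ, Set.mem_inter_iff, Set.mem_preimage, Set.mem_preimage, Set.mem_singleton_iff,
            Set.mem_singleton_iff]
          rcases le_total (sl e.1 e.2) (sl e0.1 e0.2) with h | h
          · have := c1 h
            have := d1 h
            omega
          · have := c1 h
            have := d1 h
            omega
        · apply Nat.pow_le_pow_left
          have g1 : #(Tch P b P J) ≤ W := by
            refine (card_le_card (Tch_mono ?_)).trans (c3 (c (sl e0.1 e0.2)))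
            intro x hx
            exact ⟨Set.mem_univ _, hx.1⟩
          have g2 : #(Tch P (a - 1) P J) ≤ W := by
            refine (card_le_card (Tch_mono ?_)).trans (d3 (c' (sl e0.1 e0.2)))
            intro x hx
            exact ⟨Set.mem_univ _, hx.2⟩
          omega
    _ = _ := by rw [sum_const, card_range, smul_eq_mul]

/-- one level, relative to a smaller scale: the edges of one level of `P` are distributed to few
sets of at most `W` points -/
theorem level_le {P : Finset Pt} (hP : Good P) (k : ℕ) {W : ℕ} (hW : 2 ≤ W) {N : ℕ}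
    (hN : #P ≤ N) (G : ℕ) (hG : ∀ (T : Finset Pt) (k' : ℕ), Good T → #T ≤ W → #(Ed T k') ≤ G) :
    #(Ed P k) ≤ (2 * F N (W + 1) + 1) * G := by
  classical
  obtain ⟨q, c, I, c1, c2, c3, c4, -⟩ := exists_cut hP (k := k) hW _ Set.univ
    Set.ordConnected_univ le_rfl
  have hq : q ≤ F N (W + 1) := by
    have := card_le_F hP (by omega) c4 hN
    rwa [card_range] at this
  have hmaps : Set.MapsTo (fun e : Pt × Pt => c (sl e.1 e.2))
      (↑(Ed P k) : Set (Pt × Pt)) (↑(range (2 * F N (W + 1) + 1)) : Set ℕ) := by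
    intro e _
    rw [Finset.mem_coe, mem_range]
    have := c2 (sl e.1 e.2)
    simp only
    omega
  rw [Finset.card_eq_sum_card_fiberwise hmaps]
  calc ∑ s ∈ range (2 * F N (W + 1) + 1), #{e ∈ Ed P k | c (sl e.1 e.2) = s}
      ≤ ∑ _s ∈ range (2 * F N (W + 1) + 1), G := by
        apply sum_le_sum
        intro s _
        have hJc : (c ⁻¹' {s}).OrdConnected := (Set.ordConnected_singleton).preimage_mono c1
        obtain ⟨k', hk'⟩ := Vale.Agent.P065.H859.restrict hP (k := k) hJc
        have h1 := c3 s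
        rw [Set.univ_inter] at h1
        refine (card_le_card ?_).trans (hG _ k'
          (good_subset hP (RankAux.Tch_subset _ _ _ _)) h1)
        intro e he
        obtain ⟨h2, h3⟩ := mem_filter.1 he
        exact hk' e h2 h3
    _ = _ := by rw [sum_const, card_range, smul_eq_mul]

open Classical in
/-- one piece of time: the edges of a band between two far apart `j`-edges live on a small set -/
theorem piece_band {P : Finset Pt} (hP : Good P) {a k j d : ℕ} (hkj : k + 1 ≤ j)
    (E : Finset (Pt × Pt)) (hF : E ⊆ Bd P a (k + 1))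
    (hd : ∀ e ∈ E, ∀ e' ∈ E,
      #{f ∈ Ed P j | sl e.1 e.2 ≤ sl f.1 f.2 ∧ sl f.1 f.2 < sl e'.1 e'.2} ≤ d) :
    ∃ B : Finset Pt, B ⊆ P ∧ #B ≤ j + 1 + d ∧ E ⊆ Bd B a (k + 1) := by
  rcases E.eq_empty_or_nonempty with hE | hE
  · exact ⟨∅, empty_subset _, by simp, by rw [hE]; exact empty_subset _⟩
  obtain ⟨e1, he1, hmin⟩ := E.exists_min_image (fun e => sl e.1 e.2) hE
  obtain ⟨e2, he2, hmax⟩ := E.exists_max_image (fun e => sl e.1 e.2) hE
  have hsubP : E.biUnion (fun e => insert e.1 (insert e.2 (bel P e))) ⊆ P := by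
    intro v hv
    obtain ⟨e, he, hv⟩ := mem_biUnion.1 hv
    obtain ⟨i, -, -, hi⟩ := mem_Bd.1 (hF he)
    have h := mem_Ed.1 hi
    rcases mem_insert.1 hv with h1 | h1
    · rw [h1]; exact h.1
    rcases mem_insert.1 h1 with h2 | h2
    · rw [h2]; exact h.2.1
    · exact (mem_bel.1 h2).1
  refine ⟨E.biUnion (fun e => insert e.1 (insert e.2 (bel P e))), hsubP, ?_, ?_⟩
  · refine (window_pts hP hkj (m1 := sl e1.1 e1.2) (m2 := sl e2.1 e2.2) _ ?_).trans
      (Nat.add_le_add_left (hd e1 he1 e2 he2) _)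
    intro v hv
    obtain ⟨e, he, hv⟩ := mem_biUnion.1 hv
    obtain ⟨i, -, hik, hi⟩ := mem_Bd.1 (hF he)
    have h := mem_Ed.1 hi
    have key : v ∈ P ∧ ht (sl e.1 e.2) v ≤ ht (sl e.1 e.2) e.1 := by
      rcases mem_insert.1 hv with h1 | h1
      · rw [h1]; exact ⟨h.1, le_refl _⟩
      rcases mem_insert.1 h1 with h2 | h2
      · rw [h2]; exact ⟨h.2.1, le_of_eq (edge_ht e h.2.2.1)⟩
      · exact ⟨(mem_bel.1 h2).1, (mem_bel.1 h2).2.le⟩
    refine ⟨key.1, sl e.1 e.2, hmin e he, hmax e he, (g0_le_of_below key.2).trans ?_⟩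
    rw [h.2.2.2]
    omega
  · intro e he
    obtain ⟨i, hai, hik, hi⟩ := mem_Bd.1 (hF he)
    have h := mem_Ed.1 hi
    refine mem_Bd.2 ⟨i, hai, hik, mem_Ed.2 ⟨mem_biUnion.2 ⟨e, he, mem_insert_self _ _⟩,
      mem_biUnion.2 ⟨e, he, mem_insert_of_mem (mem_insert_self _ _)⟩, h.2.2.1, ?_⟩⟩
    rw [← h.2.2.2]
    unfold g0
    congr 1
    ext v
    rw [mem_filter, mem_filter]
    constructor
    · rintro ⟨hv, hlt⟩
      exact ⟨hsubP hv, hlt⟩
    · rintro ⟨hv, hlt⟩
      exact ⟨mem_biUnion.2 ⟨e, he, mem_insert_of_mem (mem_insert_of_mem (mem_bel.2 ⟨hv, hlt⟩))⟩,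
        hlt⟩

/-- the edges of levels in `[a, k]` are distributed to `8 n / (k + 1) + 1` sets of at most
`3 k + 2` points -/
theorem decomp_band {P : Finset Pt} (hP : Good P) (a k : ℕ) :
    ∃ B : ℕ → Finset Pt, (∀ i, B i ⊆ P) ∧ (∀ i, #(B i) ≤ 3 * k + 2) ∧
      #(Bd P a (k + 1)) ≤ ∑ i ∈ range (8 * #P / (k + 1) + 1), #(Bd (B i) a (k + 1)) := by
  classical
  obtain ⟨j, hj1, hj2, hj3⟩ := exists_level hP k
  obtain ⟨cnt, hcnt⟩ : ∃ cnt : Pt × Pt → ℕ, ∀ e, cnt e =
      #{f ∈ Ed P j | sl f.1 f.2 < sl e.1 e.2} := ⟨_, fun _ => rfl⟩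
  have hpiece : ∀ i, ∃ B : Finset Pt, B ⊆ P ∧ #B ≤ j + 1 + k ∧
      ({e ∈ Bd P a (k + 1) | cnt e / (k + 1) = i} : Finset (Pt × Pt)) ⊆ Bd B a (k + 1) := by
    intro i
    apply piece_band hP hj1 _ (filter_subset _ _)
    intro e he e' he'
    obtain ⟨_, h1⟩ := mem_filter.1 he
    obtain ⟨_, h2⟩ := mem_filter.1 he'
    have h3 : cnt e' < cnt e + (k + 1) := by
      have a1 := Nat.div_add_mod (cnt e) (k + 1)
      have a2 := Nat.div_add_mod (cnt e') (k + 1)
      have a3 : cnt e' % (k + 1) < k + 1 := Nat.mod_lt (cnt e') (Nat.succ_pos k)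
      rw [h1] at a1
      rw [h2] at a2
      generalize (k + 1) * i = x at a1 a2
      omega
    have h4 : cnt e + #{f ∈ Ed P j | sl e.1 e.2 ≤ sl f.1 f.2 ∧ sl f.1 f.2 < sl e'.1 e'.2} ≤
        max (cnt e) (cnt e') := by
      by_cases h5 : sl e.1 e.2 < sl e'.1 e'.2
      · refine le_trans ?_ (le_max_right _ _)
        rw [hcnt e, hcnt e', ← Finset.card_union_of_disjoint]
        · apply Finset.card_le_card
          intro f hf
          rw [mem_union, mem_filter, mem_filter] at hf
          rw [mem_filter]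
          rcases hf with hf | hf
          · exact ⟨hf.1, hf.2.trans h5⟩
          · exact ⟨hf.1, hf.2.2⟩
        · rw [Finset.disjoint_left]
          intro f hf hf'
          rw [mem_filter] at hf hf'
          exact absurd hf.2 (not_lt.2 hf'.2.1)
      · refine le_trans (le_of_eq ?_) (le_max_left _ _)
        have : ({f ∈ Ed P j | sl e.1 e.2 ≤ sl f.1 f.2 ∧ sl f.1 f.2 < sl e'.1 e'.2} :
            Finset (Pt × Pt)) = ∅ := by
          rw [filter_eq_empty_iff]
          intro f _ hf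
          exact h5 (lt_of_le_of_lt hf.1 hf.2)
        rw [this, card_empty, add_zero]
    rcases le_total (cnt e) (cnt e') with h6 | h6
    · rw [max_eq_right h6] at h4
      omega
    · rw [max_eq_left h6] at h4
      omega
  choose B hB1 hB2 hB3 using hpiece
  refine ⟨B, hB1, fun i => (hB2 i).trans (by omega), ?_⟩
  have hmaps : Set.MapsTo (fun e => cnt e / (k + 1)) (↑(Bd P a (k + 1)) : Set (Pt × Pt))
      (↑(range (8 * #P / (k + 1) + 1)) : Set ℕ) := by
    intro e _
    rw [Finset.mem_coe, mem_range]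
    apply Nat.lt_succ_of_le
    apply Nat.div_le_div_right
    rw [hcnt]
    exact (card_le_card (filter_subset _ _)).trans hj3
  rw [Finset.card_eq_sum_card_fiberwise hmaps]
  apply Finset.sum_le_sum
  intro i _
  exact card_le_card (hB3 i)

end Vale.Agent.N065
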