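import Vale.Agent.N065.Band
import Vale.Agent.P065.U.H792.Trans

/-!
# P065: replacing every point by a cluster of nearby points (helper51)
-/

set_option autoImplicit false

namespace Vale.Agent.N065

open Finset Filter Topology Vale.Agent.P065 Vale.Agent.P065.UB Vale.Agent.P065.H882
open Vale.Agent.P065.U.H792.Trans

/-- `P` arises from `Q` by replacing every point `q` by the cluster `π ⁻¹ q` -/
structure Clu (Q P : Finset Pt) (π : Pt → Pt) : Prop where
  good : Good P
  sub : Q ⊆ P
  fix : ∀ q ∈ Q, π q = q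
  maps : ∀ a ∈ P, π a ∈ Q
  xord : ∀ a ∈ P, ∀ b ∈ P, (π a).1 < (π b).1 → a.1 < b.1
  ori : ∀ a ∈ P, ∀ b ∈ P, ∀ c ∈ P, orient (π a) (π b) (π c) < 0 → orient a b c < 0

theorem orient_cyc (a b c : Pt) : orient a b c = orient b c a := by
  unfold orient
  ring

theorem orient_swap (a b c : Pt) : orient b a c = - orient a b c := by
  unfold orient
  ring

theorem orient_self (a b : Pt) : orient a b b = 0 := by
  unfold orient
  ring

theorem orient_zero {m : ℝ} {a b c : Pt} (h1 : ht m a = ht m b) (h2 : ht m a = ht m c) :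
    orient a b c = 0 := by
  unfold ht at h1 h2
  unfold orient
  linear_combination (c.1 - a.1) * h1 - (b.1 - a.1) * h2

/-- a point close to `q` in general position with respect to `P` -/
theorem exists_near {P : Finset Pt} (hP : Good P) (q : Pt) :
    ∃ z : Pt, (∀ a ∈ P, a.1 ≠ z.1) ∧ (∀ a ∈ P, ∀ b ∈ P, a ≠ b → orient a b z ≠ 0) ∧
      (∀ a ∈ P, a.1 < q.1 → a.1 < z.1) ∧ (∀ a ∈ P, q.1 < a.1 → z.1 < a.1) ∧
      ∀ a ∈ P, ∀ b ∈ P, orient a b q < 0 → orient a b z < 0 := by
  set Z : ℝ → Pt := fun s => (q.1 + s, q.2 + s ^ 2) with hZ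
  have hle : 𝓝[>] (0 : ℝ) ≤ 𝓝 0 := nhdsWithin_le_nhds
  have hpos : ∀ᶠ s in 𝓝[>] (0 : ℝ), 0 < s := self_mem_nhdsWithin
  have hlt : ∀ {f : ℝ → ℝ}, Continuous f → f 0 < 0 → ∀ᶠ s in 𝓝[>] (0 : ℝ), f s < 0 := by
    intro f hf h0
    exact hle ((hf.tendsto 0).eventually_lt_const h0)
  have hne : ∀ {f : ℝ → ℝ}, Continuous f → f 0 ≠ 0 → ∀ᶠ s in 𝓝[>] (0 : ℝ), f s ≠ 0 := by
    intro f hf h0
    exact hle ((hf.tendsto 0).eventually_ne h0)
  have hco : ∀ a b : Pt, Continuous fun s => orient a b (Z s) := by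
    intro a b
    simp only [hZ, orient]
    fun_prop
  have hZ0 : Z 0 = q := by
    simp only [hZ]
    ext <;> simp
  have e3 : ∀ᶠ s in 𝓝[>] (0 : ℝ), ∀ a ∈ P, q.1 < a.1 → (Z s).1 < a.1 := by
    rw [eventually_all_finset]
    intro a _
    by_cases h : q.1 < a.1
    · have := hlt (f := fun s => q.1 + s - a.1) (by fun_prop) (by simpa using h)
      filter_upwards [this] with s hs _
      simp only [hZ]
      linarith
    · exact Eventually.of_forall fun s h' => absurd h' h
  have e4 : ∀ᶠ s in 𝓝[>] (0 : ℝ), ∀ a ∈ P, ∀ b ∈ P, orient a b q < 0 → orient a b (Z s) < 0 := by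
    rw [eventually_all_finset]
    intro a _
    rw [eventually_all_finset]
    intro b _
    by_cases h : orient a b q < 0
    · have := hlt (hco a b) (by rw [hZ0]; exact h)
      filter_upwards [this] with s hs _
      exact hs
    · exact Eventually.of_forall fun s h' => absurd h' h
  have e2 : ∀ᶠ s in 𝓝[>] (0 : ℝ), ∀ a ∈ P, ∀ b ∈ P, a ≠ b → orient a b (Z s) ≠ 0 := by
    rw [eventually_all_finset]
    intro a ha
    rw [eventually_all_finset]
    intro b hb
    by_cases hab : a = b
    · exact Eventually.of_forall fun s h' => absurd hab h'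
    have hx : b.1 - a.1 ≠ 0 := sub_ne_zero.2 fun h => hab (hP.xinj a ha b hb h.symm)
    by_cases h : orient a b q = 0
    · have key : ∀ s, orient a b (Z s) = s * ((b.1 - a.1) * s - (b.2 - a.2)) := by
        intro s
        unfold orient at h ⊢
        simp only [hZ]
        linear_combination h
      by_cases hy : b.2 - a.2 = 0
      · filter_upwards [hpos] with s hs _
        rw [key, hy, sub_zero]
        exact mul_ne_zero hs.ne' (mul_ne_zero hx hs.ne')
      · have := hne (f := fun s => (b.1 - a.1) * s - (b.2 - a.2)) (by fun_prop)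
          (by simpa using fun h' => hy (by linarith))
        filter_upwards [hpos, this] with s hs hs' _
        rw [key]
        exact mul_ne_zero hs.ne' hs'
    · have := hne (hco a b) (by rw [hZ0]; exact h)
      filter_upwards [this] with s hs _
      exact hs
  obtain ⟨s, hs, h2, h3, h4⟩ := (hpos.and (e2.and (e3.and e4))).exists
  have h5 : ∀ a ∈ P, a.1 ≤ q.1 → a.1 < (Z s).1 := by
    intro a _ h
    simp only [hZ]
    linarith
  refine ⟨Z s, ?_, h2, fun a ha h => h5 a ha h.le, h3, h4⟩
  intro a ha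
  rcases le_or_gt a.1 q.1 with h | h
  · exact (h5 a ha h).ne
  · exact (h3 a ha h).ne'

open Classical in
/-- one more point in the cluster of `q` -/
theorem Clu.clone {Q P : Finset Pt} {π : Pt → Pt} (h : Clu Q P π) {q : Pt} (hq : q ∈ Q) :
    ∃ z : Pt, z ∉ P ∧ Clu Q (insert z P) (Function.update π z q) := by
  obtain ⟨z, h1, h2, h3, h4, h5⟩ := exists_near h.good q
  have hzP : z ∉ P := fun hz => h1 z hz rfl
  have hqP := h.sub hq
  have hπq := h.fix q hq
  have u1 : Function.update π z q z = q := Function.update_self ..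
  have u2 : ∀ a ∈ P, Function.update π z q a = π a := fun a ha =>
    Function.update_of_ne (fun h' : a = z => hzP (h' ▸ ha)) ..
  have o1 : ∀ a ∈ P, ∀ b ∈ P, orient (π a) (π b) q < 0 → orient a b z < 0 := by
    intro a ha b hb hh
    refine h5 a ha b hb (h.ori a ha b hb q hqP ?_)
    rwa [hπq]
  refine ⟨z, hzP, ⟨?_, ?_⟩, fun a ha => mem_insert_of_mem (h.sub ha), ?_, ?_, ?_, ?_⟩
  · intro a ha b hb hab
    rcases mem_insert.1 ha with rfl | ha'
    · rcases mem_insert.1 hb with rfl | hb'
      · rfl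
      · exact absurd hab.symm (h1 b hb')
    · rcases mem_insert.1 hb with rfl | hb'
      · exact absurd hab (h1 a ha')
      · exact h.good.xinj a ha' b hb' hab
  · intro m a ha b hb c hc hab hac hbc g1 g2
    have g3 := orient_zero g1 g2
    rcases mem_insert.1 ha with ha' | ha'
    · rcases mem_insert.1 hb with hb' | hb'
      · exact hab (ha'.trans hb'.symm)
      rcases mem_insert.1 hc with hc' | hc'
      · exact hac (ha'.trans hc'.symm)
      rw [orient_cyc, ha'] at g3
      exact h2 b hb' c hc' hbc g3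
    · rcases mem_insert.1 hb with hb' | hb'
      · rcases mem_insert.1 hc with hc' | hc'
        · exact hbc (hb'.trans hc'.symm)
        rw [orient_cyc, orient_cyc, hb'] at g3
        exact h2 c hc' a ha' (Ne.symm hac) g3
      · rcases mem_insert.1 hc with hc' | hc'
        · rw [hc'] at g3
          exact h2 a ha' b hb' hab g3
        · exact h.good.gen m a ha' b hb' c hc' hab hac hbc g1 g2
  · intro a ha
    rw [u2 a (h.sub ha)]
    exact h.fix a ha
  · intro a ha
    rcases mem_insert.1 ha with rfl | ha'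
    · rw [u1]
      exact hq
    · rw [u2 a ha']
      exact h.maps a ha'
  · intro a ha b hb hab
    rcases mem_insert.1 ha with rfl | ha'
    · rcases mem_insert.1 hb with rfl | hb'
      · exact absurd hab (lt_irrefl _)
      · rw [u1, u2 b hb'] at hab
        exact h4 b hb' (h.xord q hqP b hb' (by rwa [hπq]))
    · rcases mem_insert.1 hb with rfl | hb'
      · rw [u1, u2 a ha'] at hab
        exact h3 a ha' (h.xord a ha' q hqP (by rwa [hπq]))
      · rw [u2 a ha', u2 b hb'] at hab
        exact h.xord a ha' b hb' hab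
  · intro a ha b hb c hc hh
    rcases mem_insert.1 ha with ha' | ha'
    · rcases mem_insert.1 hb with hb' | hb'
      · rw [ha', hb', orient_cyc, orient_cyc, orient_self] at hh
        exact absurd hh (lt_irrefl _)
      rcases mem_insert.1 hc with hc' | hc'
      · rw [ha', hc', orient_cyc, orient_self] at hh
        exact absurd hh (lt_irrefl _)
      rw [ha', u1, u2 b hb', u2 c hc', orient_cyc] at hh
      rw [ha', orient_cyc]
      exact o1 b hb' c hc' hh
    · rcases mem_insert.1 hb with hb' | hb'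
      · rcases mem_insert.1 hc with hc' | hc'
        · rw [hb', hc', orient_self] at hh
          exact absurd hh (lt_irrefl _)
        rw [hb', u1, u2 a ha', u2 c hc', orient_cyc, orient_cyc] at hh
        rw [hb', orient_cyc, orient_cyc]
        exact o1 c hc' a ha' hh
      · rcases mem_insert.1 hc with hc' | hc'
        · rw [hc', u1, u2 a ha', u2 b hb'] at hh
          rw [hc']
          exact o1 a ha' b hb' hh
        · rw [u2 a ha', u2 b hb', u2 c hc'] at hh
          exact h.ori a ha' b hb' c hc' hh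

open Classical in
/-- clusters of prescribed sizes -/
theorem exists_clu {Q : Finset Pt} (hQ : Good Q) : ∀ (n : ℕ) (f : Pt → ℕ), ∑ q ∈ Q, f q = n →
    ∃ (P : Finset Pt) (π : Pt → Pt), Clu Q P π ∧ ∀ q ∈ Q, #{a ∈ P | π a = q} = f q + 1 := by
  intro n
  induction n with
  | zero =>
    intro f hf
    refine ⟨Q, id, ⟨hQ, Subset.refl _, fun _ _ => rfl, fun _ h => h, fun _ _ _ _ h => h,
      fun _ _ _ _ _ _ h => h⟩, ?_⟩
    intro q hq
    rw [Finset.sum_eq_zero_iff] at hf
    rw [hf q hq, zero_add, card_eq_one]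
    refine ⟨q, ?_⟩
    ext a
    rw [mem_filter, mem_singleton, id]
    exact ⟨fun h => h.2, fun h => ⟨h ▸ hq, h⟩⟩
  | succ n ih =>
    intro f hf
    have hex : ∃ q ∈ Q, f q ≠ 0 := by
      by_contra hcon
      push Not at hcon
      rw [Finset.sum_eq_zero hcon] at hf
      omega
    obtain ⟨q0, hq0, hf0⟩ := hex
    obtain ⟨P, π, h, hc⟩ := ih (Function.update f q0 (f q0 - 1)) (by
      rw [Finset.sum_update_of_mem hq0]
      rw [← Finset.add_sum_erase _ _ hq0, ← Finset.sdiff_singleton_eq_erase] at hf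
      omega)
    obtain ⟨z, hz, h'⟩ := h.clone hq0
    refine ⟨_, _, h', ?_⟩
    intro q hq
    have u2 : ∀ a ∈ P, Function.update π z q0 a = π a := fun a ha =>
      Function.update_of_ne (fun h' : a = z => hz (h' ▸ ha)) ..
    have e1 : ({a ∈ P | Function.update π z q0 a = q} : Finset Pt) = {a ∈ P | π a = q} := by
      apply filter_congr
      intro a ha
      rw [u2 a ha]
    have h1 := hc q hq
    rw [filter_insert, Function.update_self, e1]
    by_cases hqq : q0 = q
    · rw [if_pos hqq, card_insert_of_notMem (fun h => hz (mem_filter.1 h).1), h1, ← hqq,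
        Function.update_self]
      omega
    · rw [if_neg hqq, h1, Function.update_of_ne (Ne.symm hqq)]

open Classical in
theorem card_pre {Q P : Finset Pt} {π : Pt → Pt} {j : ℕ}
    (hc : ∀ q ∈ Q, #{a ∈ P | π a = q} = j) {S : Finset Pt} (hS : S ⊆ Q) :
    #{a ∈ P | π a ∈ S} = j * #S := by
  rw [Finset.card_eq_sum_card_fiberwise (f := π) (t := S)]
  · rw [mul_comm, ← smul_eq_mul, ← sum_const]
    apply sum_congr rfl
    intro q hq
    rw [← hc q (hS hq), filter_filter]
    congr 1
    apply filter_congr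
    intro a _
    exact ⟨fun h => h.2, fun h => ⟨h ▸ hq, h⟩⟩
  · intro a ha
    exact (mem_filter.1 (mem_coe.1 ha)).2

open Classical in
/-- the pairs of points of the clusters of a `t`-edge have their levels in a short band -/
theorem level_clu {Q P : Finset Pt} {π : Pt → Pt} (hQ : Good Q) (h : Clu Q P π) {j : ℕ}
    (hc : ∀ q ∈ Q, #{a ∈ P | π a = q} = j) {t : ℕ} {a b : Pt} (ha : a ∈ P) (hb : b ∈ P)
    (he : (π a, π b) ∈ Ed Q t) : (a, b) ∈ Bd P (j * t) (j * t + (2 * j - 1)) := by
  obtain ⟨h1, h2, h3, -⟩ := mem_Ed.1 he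
  simp only at h1 h2 h3
  have hab : a.1 < b.1 := h.xord a ha b hb h3
  have hbel : bel Q (π a, π b) ⊆ Q := fun v hv => (mem_bel.1 hv).1
  have hpre := card_pre hc hbel
  rw [card_bel he] at hpre
  have o1 : ∀ {p q : Pt}, p.1 < q.1 → ∀ c : Pt,
      (ht (sl p q) c < ht (sl p q) p ↔ orient p q c < 0) := by
    intro p q hpq c
    rw [orient_eq hpq.ne c]
    have hp : 0 < q.1 - p.1 := by linarith
    constructor
    · intro g
      exact mul_neg_of_pos_of_neg hp (by linarith)
    · intro g
      by_contra g'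
      have : 0 ≤ (q.1 - p.1) * (ht (sl p q) c - ht (sl p q) p) :=
        mul_nonneg hp.le (by linarith)
      linarith
  have hlow : ({c ∈ P | π c ∈ bel Q (π a, π b)} : Finset Pt) ⊆
      {c ∈ P | ht (sl a b) c < ht (sl a b) a} := by
    intro c hc'
    obtain ⟨g1, g2⟩ := mem_filter.1 hc'
    exact mem_filter.2 ⟨g1, (o1 hab c).2 (h.ori a ha b hb c g1 ((o1 h3 _).1 (mem_bel.1 g2).2))⟩
  have hupp : ({c ∈ P | ht (sl a b) c < ht (sl a b) a} : Finset Pt) ⊆
      ({c ∈ P | π c ∈ bel Q (π a, π b)} ∪ ({c ∈ P | π c = π a} : Finset Pt).erase a) ∪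
        ({c ∈ P | π c = π b} : Finset Pt).erase b := by
    intro c hc'
    obtain ⟨g1, g2⟩ := mem_filter.1 hc'
    rw [mem_union, mem_union, mem_erase, mem_erase, mem_filter, mem_filter, mem_filter]
    by_cases k1 : π c = π a
    · refine Or.inl (Or.inr ⟨?_, g1, k1⟩)
      rintro rfl
      exact lt_irrefl _ g2
    by_cases k2 : π c = π b
    · refine Or.inr ⟨?_, g1, k2⟩
      rintro rfl
      rw [edge_ht (a, c) hab] at g2
      exact lt_irrefl _ g2
    refine Or.inl (Or.inl ⟨g1, mem_bel.2 ⟨h.maps c g1, ?_⟩⟩)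
    have hne : π a ≠ π b := fun e => by rw [e] at h3; exact lt_irrefl _ h3
    rcases lt_trichotomy (orient (π a) (π b) (π c)) 0 with k3 | k3 | k3
    · exact (o1 h3 _).2 k3
    · exfalso
      rw [orient_eq h3.ne] at k3
      rcases mul_eq_zero.1 k3 with k4 | k4
      · linarith
      · exact hQ.gen (sl (π a) (π b)) _ h1 _ h2 _ (h.maps c g1) hne (Ne.symm k1) (Ne.symm k2)
          (edge_ht (π a, π b) h3).symm (by linarith)
    · exfalso
      have k4 := h.ori b hb a ha c g1 (by rw [orient_swap]; linarith)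
      rw [orient_swap] at k4
      have k5 := (o1 hab c).1 g2
      linarith
  have c1 := card_le_card hlow
  have c2 := (card_le_card hupp).trans ((card_union_le _ _).trans
    (Nat.add_le_add_right (card_union_le _ _) _))
  have ma : a ∈ ({c ∈ P | π c = π a} : Finset Pt) := mem_filter.2 ⟨ha, rfl⟩
  have mb : b ∈ ({c ∈ P | π c = π b} : Finset Pt) := mem_filter.2 ⟨hb, rfl⟩
  rw [card_erase_of_mem ma, card_erase_of_mem mb, hc _ h1, hc _ h2, hpre] at c2
  rw [hpre] at c1
  have hj : 1 ≤ j := by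
    rw [← hc _ h1]
    exact card_pos.2 ⟨a, ma⟩
  refine mem_Bd.2 ⟨g0 P (sl a b) a, c1, ?_, mem_Ed.2 ⟨ha, hb, hab, rfl⟩⟩
  unfold g0
  omega

/-- **clusters**: `j ^ 2` edges in a band of `2 j - 1` levels for every `t`-edge -/
theorem band_lower {Q : Finset Pt} (hQ : Good Q) (t : ℕ) {j : ℕ} (hj : 1 ≤ j) :
    ∃ P : Finset Pt, Good P ∧ #P = j * #Q ∧
      j ^ 2 * #(Ed Q t) ≤ #(Bd P (j * t) (j * t + (2 * j - 1))) := by
  classical
  obtain ⟨P, π, h, hc⟩ := exists_clu hQ _ (fun _ => j - 1) rfl
  have hc' : ∀ q ∈ Q, #{a ∈ P | π a = q} = j := fun q hq => by rw [hc q hq]; omega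
  refine ⟨P, h.good, ?_, ?_⟩
  · rw [← card_pre hc' (Subset.refl Q), filter_true_of_mem h.maps]
  · set S : Finset (Pt × Pt) := {e ∈ P ×ˢ P | (π e.1, π e.2) ∈ Ed Q t} with hS
    have h1 : S ⊆ Bd P (j * t) (j * t + (2 * j - 1)) := by
      intro e he
      obtain ⟨g1, g2⟩ := mem_filter.1 he
      exact level_clu hQ h hc' (mem_product.1 g1).1 (mem_product.1 g1).2 g2
    refine le_trans (le_of_eq ?_) (card_le_card h1)
    rw [Finset.card_eq_sum_card_fiberwise (s := S) (f := fun e => (π e.1, π e.2)) (t := Ed Q t)]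
    · rw [mul_comm, ← smul_eq_mul, ← sum_const]
      apply sum_congr rfl
      intro f hf
      obtain ⟨g1, g2, -, -⟩ := mem_Ed.1 hf
      rw [sq]
      conv_lhs => rw [← hc' _ g1]
      conv_lhs => arg 2; rw [hc' _ g1, ← hc' _ g2]
      rw [← card_product]
      congr 1
      ext e
      simp only [hS, mem_filter, mem_product]
      constructor
      · rintro ⟨⟨k1, k2⟩, k3, k4⟩
        have : (π e.1, π e.2) = f := Prod.ext k2 k4
        exact ⟨⟨⟨k1, k3⟩, this ▸ hf⟩, this⟩
      · rintro ⟨⟨⟨k1, k3⟩, -⟩, k4⟩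
        exact ⟨⟨k1, congrArg Prod.fst k4⟩, k3, congrArg Prod.snd k4⟩
    · intro e he
      exact (mem_filter.1 (mem_coe.1 he)).2

end Vale.Agent.N065
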