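import Vale.Agent.N065.Band
import Vale.Agent.P065.R2.H841.Reg

/-!
# P065: scale-uniform growth of `h` and of `e_k(n)`, bands of consecutive levels (helper51)
-/

set_option autoImplicit false

namespace Vale.Agent.N065

open Finset Vale.Agent.P065 Vale.Agent.P065.UB Vale.Agent.P065.H859 Vale.Agent.P065.H882
open Vale.Agent.P065.U.H792.Trans Vale.Agent.P065.R2.H841

theorem F_le_one (hβ : beta ≤ 1) {ε : ℝ} (hε : 0 < ε) : ∃ C : ℝ, 1 ≤ C ∧ ∀ N w : ℕ, 1 ≤ w →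
    w ≤ N → (F N w : ℝ) ≤ C * ((N : ℝ) / w) ^ (1 + ε) := by
  obtain ⟨C, hC, h⟩ := exists_F_le hε
  refine ⟨C, hC, fun N w hw hN => (h N w hw hN).trans ?_⟩
  have hw' : (0 : ℝ) < w := by exact_mod_cast hw
  have hN' : (1 : ℝ) ≤ (N : ℝ) / w := by
    rw [le_div_iff₀ hw', one_mul]
    exact_mod_cast hN
  apply mul_le_mul_of_nonneg_left _ (by linarith)
  exact Real.rpow_le_rpow_of_exponent_le hN' (by linarith)

theorem one_le_ratio {N w : ℕ} (hw : 1 ≤ w) (hN : w ≤ N) {s : ℝ} (hs : 0 ≤ s) :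
    (1 : ℝ) ≤ ((N : ℝ) / w) ^ s := by
  have hw' : (0 : ℝ) < w := by exact_mod_cast hw
  apply Real.one_le_rpow _ hs
  rw [le_div_iff₀ hw', one_mul]
  exact_mod_cast hN

theorem rpow_split {x ε : ℝ} (hx : 0 < x) : x ^ (1 + ε) = x * x ^ ε := by
  rw [Real.rpow_add hx, Real.rpow_one]

/-- a band of `j` consecutive levels of at most `N` points -/
theorem band_real (hβ : beta ≤ 1) {ε : ℝ} (hε : 0 < ε) : ∃ C : ℝ, 1 ≤ C ∧
    ∀ (P : Finset Pt) (a j N : ℕ), Good P → #P ≤ N → 1 ≤ j → j ≤ N →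
      (#(Bd P a (a + j)) : ℝ) ≤ C * ((N : ℝ) / j) ^ (1 + ε) * (j : ℝ) ^ 2 := by
  obtain ⟨C, hC, h⟩ := F_le_one hβ hε
  refine ⟨180 * C, by linarith, fun P a j N hP hN hj hjN => ?_⟩
  have h1 := band_le hP a (a + j) (W := j + 1) (by omega) hN
  have h2 : F N (j + 1 + 1) ≤ F N j := F_mono le_rfl hj (by omega)
  have h3 : a + j + 1 - a + 2 * (j + 1) ≤ 6 * j := by omega
  have h4 : #(Bd P a (a + j)) ≤ (4 * F N j + 1) * (6 * j) ^ 2 :=
    h1.trans (Nat.mul_le_mul (by omega) (Nat.pow_le_pow_left h3 2))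
  have h5 : (#(Bd P a (a + j)) : ℝ) ≤ (4 * F N j + 1) * (6 * j) ^ 2 := by exact_mod_cast h4
  have h6 := h N j hj hjN
  have h7 := one_le_ratio hj hjN (s := 1 + ε) (by linarith)
  set X := ((N : ℝ) / j) ^ (1 + ε) with hX
  have h8 : (1 : ℝ) ≤ C * X := by nlinarith
  have h9 : (4 * F N j + 1 : ℝ) ≤ 5 * (C * X) := by linarith
  calc (#(Bd P a (a + j)) : ℝ) ≤ (4 * F N j + 1) * (6 * j) ^ 2 := h5
    _ ≤ 5 * (C * X) * (6 * j) ^ 2 := mul_le_mul_of_nonneg_right h9 (by positivity)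
    _ = 180 * C * X * (j : ℝ) ^ 2 := by ring

/-- the `k`-sensitive form: the levels `k - j, ..., k - 1` -/
theorem band_k (hβ : beta ≤ 1) {ε : ℝ} (hε : 0 < ε) : ∃ C : ℝ, 1 ≤ C ∧
    ∀ (P : Finset Pt) (j k : ℕ), Good P → 1 ≤ j → j ≤ k → k ≤ #P →
      (#(Bd P (k - j) k) : ℝ) ≤ C * #P * j * ((k : ℝ) / j) ^ ε := by
  obtain ⟨C, hC, h⟩ := band_real hβ hε
  have h3e : (1 : ℝ) ≤ 3 ^ (1 + ε) := Real.one_le_rpow (by norm_num) (by linarith)
  refine ⟨9 * C * 3 ^ (1 + ε), by nlinarith, fun P j k hP hj hjk hk => ?_⟩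
  obtain ⟨k, rfl⟩ : ∃ k', k = k' + 1 := ⟨k - 1, by omega⟩
  obtain ⟨B, hB1, hB2, hB3⟩ := decomp_band hP (k + 1 - j) k
  have hj' : (0 : ℝ) < j := by exact_mod_cast hj
  have hk' : (0 : ℝ) < ((k + 1 : ℕ) : ℝ) := by positivity
  set K : ℝ := ((k + 1 : ℕ) : ℝ) with hK
  have hterm : ∀ i, (#(Bd (B i) (k + 1 - j) (k + 1)) : ℝ) ≤
      C * (3 * (K / j)) ^ (1 + ε) * (j : ℝ) ^ 2 := by
    intro i
    have h1 := h (B i) (k + 1 - j) j (3 * (k + 1)) (good_mono hP (hB1 i))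
      ((hB2 i).trans (by omega)) hj (by omega)
    rw [show k + 1 - j + j = k + 1 by omega] at h1
    have e : (((3 * (k + 1) : ℕ) : ℝ) / j) = 3 * (K / j) := by
      rw [hK]
      push_cast
      ring
    rwa [e] at h1
  have hsum : (#(Bd P (k + 1 - j) (k + 1)) : ℝ) ≤
      ((8 * #P / (k + 1) + 1 : ℕ) : ℝ) * (C * (3 * (K / j)) ^ (1 + ε) * (j : ℝ) ^ 2) := by
    calc (#(Bd P (k + 1 - j) (k + 1)) : ℝ)
        ≤ ((∑ i ∈ range (8 * #P / (k + 1) + 1), #(Bd (B i) (k + 1 - j) (k + 1)) : ℕ) : ℝ) := by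
          exact_mod_cast hB3
      _ = ∑ i ∈ range (8 * #P / (k + 1) + 1), (#(Bd (B i) (k + 1 - j) (k + 1)) : ℝ) := by
          push_cast; rfl
      _ ≤ ∑ _i ∈ range (8 * #P / (k + 1) + 1), C * (3 * (K / j)) ^ (1 + ε) * (j : ℝ) ^ 2 :=
          Finset.sum_le_sum fun i _ => hterm i
      _ = _ := by rw [sum_const, card_range, nsmul_eq_mul]
  have hM : ((8 * #P / (k + 1) + 1 : ℕ) : ℝ) ≤ 9 * #P / K := by
    rw [le_div_iff₀ hk', hK]
    have h1 : (8 * #P / (k + 1) + 1) * (k + 1) ≤ 9 * #P := by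
      have := Nat.div_mul_le_self (8 * #P) (k + 1)
      rw [Nat.add_mul, Nat.one_mul]
      omega
    exact_mod_cast h1
  have hpos : 0 ≤ C * (3 * (K / j)) ^ (1 + ε) * (j : ℝ) ^ 2 := by positivity
  refine hsum.trans ((mul_le_mul_of_nonneg_right hM hpos).trans (le_of_eq ?_))
  rw [Real.mul_rpow (by norm_num) (by positivity), rpow_split (x := K / j) (by positivity)]
  field_simp

theorem sum_Ioc_shift (f : ℕ → ℕ) (a b : ℕ) :
    ∑ i ∈ Ioc a b, f i = ∑ i ∈ Ico a b, f (i + 1) := by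
  rw [Finset.sum_Ico_add' f a b 1]
  apply Finset.sum_congr _ (fun _ _ => rfl)
  ext x
  rw [mem_Ioc, mem_Ico]
  omega

/-- **bands of `i`-sets**: the number of `i`-sets with `k - j < i ≤ k` -/
theorem band_kSets (hβ : beta ≤ 1) {ε : ℝ} (hε : 0 < ε) : ∃ C : ℝ,
    ∀ (P : Finset (ℝ × ℝ)) (j k : ℕ), GenPos P → 1 ≤ j → j ≤ k → k < #P →
      ((∑ i ∈ Ioc (k - j) k, kSetNumber P i : ℕ) : ℝ) ≤ C * #P * j * ((k : ℝ) / j) ^ ε := by
  classical
  obtain ⟨C, hC, h⟩ := band_k hβ hε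
  refine ⟨2 * C + 2, fun P j k hg hj hjk hk => ?_⟩
  obtain ⟨δ, hδ⟩ := exists_shear P
  have h1 := good_shear hg hδ
  have hn : #(P.image (sh δ)) = #P := card_image_sh _ _
  have hn' : #((P.image (sh δ)).image mir) = #P := by
    rw [card_image_of_injective _ mir_inj, hn]
  have h2 : ∑ i ∈ Ioc (k - j) k, kSetNumber P i ≤
      #(Bd (P.image (sh δ)) (k - j) k) + #(Bd ((P.image (sh δ)).image mir) (k - j) k) + 2 * j := by
    rw [sum_Ioc_shift, card_Bd, card_Bd, ← sum_add_distrib]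
    have e : 2 * j = ∑ _i ∈ Ico (k - j) k, 2 := by
      rw [sum_const, Nat.card_Ico, smul_eq_mul, show k - (k - j) = j by omega, mul_comm]
    rw [e, ← sum_add_distrib]
    apply sum_le_sum
    intro i hi
    rw [mem_Ico] at hi
    have g1 := kSetNumber_shear (P := P) δ (i + 1)
    have g2 := kSetNumber_le h1 (k := i) (by omega)
    have g3 := card_Ed_mir h1 (k := i) (by omega)
    omega
  have h3 := h _ j k h1 hj hjk (by omega)
  have h4 := h _ j k (good_mir h1) hj hjk (by omega)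
  rw [hn] at h3
  rw [hn'] at h4
  have h5 : ((∑ i ∈ Ioc (k - j) k, kSetNumber P i : ℕ) : ℝ) ≤
      #(Bd (P.image (sh δ)) (k - j) k) + #(Bd ((P.image (sh δ)).image mir) (k - j) k) +
        2 * j := by exact_mod_cast h2
  have h6 := one_le_ratio hj hjk hε.le
  have h7 : (1 : ℝ) ≤ #P := by exact_mod_cast (by omega : 1 ≤ #P)
  have h8 : (j : ℝ) ≤ #P * j * ((k : ℝ) / j) ^ ε := by
    have hj0 : (0 : ℝ) ≤ j := Nat.cast_nonneg _
    calc (j : ℝ) = 1 * j * 1 := by ring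
      _ ≤ #P * j * ((k : ℝ) / j) ^ ε := by gcongr
  nlinarith

/-- **scale-uniform growth of `h`** -/
theorem hmax_scale (hβ : beta ≤ 1) {ε : ℝ} (hε : 0 < ε) : ∃ C : ℝ, 1 ≤ C ∧
    ∀ m k : ℕ, 1 ≤ m → m ≤ k →
      (hmax (2 * k) : ℝ) ≤ C * ((k : ℝ) / m) ^ (1 + ε) * hmax (2 * m) := by
  obtain ⟨C, hC, h⟩ := F_le_one hβ hε
  have h2e : (1 : ℝ) ≤ 2 ^ (1 + ε) := Real.one_le_rpow (by norm_num) (by linarith)
  refine ⟨3 * C * 2 ^ (1 + ε), by nlinarith, fun m k hm hmk => ?_⟩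
  obtain ⟨P, hP, hc, hw⟩ := hmax_witness (hm.trans hmk)
  have h1 := level_le hP (k - 1) (W := m + 1) (by omega) hc.le (hmax (2 * m)) (by
    intro T k' hT hcT
    rcases (Ed T k').eq_empty_or_nonempty with h0 | ⟨e, he⟩
    · rw [h0, card_empty]
      exact Nat.zero_le _
    · have g1 := card_above hT he
      have g2 := card_Ed_side hT (m := k' + 1) (k := m) (by omega) (by omega) (by omega)
      rwa [Nat.add_sub_cancel] at g2)
  have h2 : F (2 * k) (m + 1 + 1) ≤ F (2 * k) m := F_mono le_rfl hm (by omega)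
  have h3 : hmax (2 * k) ≤ (2 * F (2 * k) m + 1) * hmax (2 * m) :=
    hw.trans (h1.trans (Nat.mul_le_mul_right _ (by omega)))
  have h4 : (hmax (2 * k) : ℝ) ≤ (2 * F (2 * k) m + 1) * hmax (2 * m) := by exact_mod_cast h3
  have h5 := h (2 * k) m hm (by omega)
  have h6 := one_le_ratio hm (N := 2 * k) (by omega) (s := 1 + ε) (by linarith)
  have hm' : (0 : ℝ) < m := by exact_mod_cast hm
  have e : (((2 * k : ℕ) : ℝ) / m) ^ (1 + ε) = 2 ^ (1 + ε) * ((k : ℝ) / m) ^ (1 + ε) := by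
    rw [← Real.mul_rpow (by norm_num) (by positivity)]
    congr 1
    push_cast
    ring
  set X := (((2 * k : ℕ) : ℝ) / m) ^ (1 + ε) with hX
  have h7 : (1 : ℝ) ≤ C * X := by nlinarith
  have h8 : (2 * F (2 * k) m + 1 : ℝ) ≤ 3 * (C * X) := by linarith
  calc (hmax (2 * k) : ℝ) ≤ (2 * F (2 * k) m + 1) * hmax (2 * m) := h4
    _ ≤ 3 * (C * X) * hmax (2 * m) := mul_le_mul_of_nonneg_right h8 (by positivity)
    _ = 3 * C * 2 ^ (1 + ε) * ((k : ℝ) / m) ^ (1 + ε) * hmax (2 * m) := by rw [e]; ring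

/-- **scale-uniform growth of `e_k(n)` in `k`** -/
theorem emax_scale (hβ : beta ≤ 1) {ε : ℝ} (hε : 0 < ε) : ∃ C : ℝ, 1 ≤ C ∧
    ∀ m k n : ℕ, 1 ≤ m → m ≤ k → 2 * k ≤ n →
      (emax k n : ℝ) ≤ C * ((k : ℝ) / m) ^ ε * emax m n := by
  obtain ⟨C, hC, h⟩ := hmax_scale hβ hε
  refine ⟨416 * C, by linarith, fun m k n hm hmk hn => ?_⟩
  have h1 := emax_upper (hm.trans hmk) hn
  have h2 : (n : ℝ) * hmax (2 * m) ≤ 8 * m * emax m n := by
    exact_mod_cast emax_lower2 hm (n := n) (by omega)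
  have h3 := h m k hm hmk
  have hm' : (0 : ℝ) < m := by exact_mod_cast hm
  have hk' : (0 : ℝ) < k := by exact_mod_cast (hm.trans hmk)
  rw [rpow_split (x := (k : ℝ) / m) (by positivity)] at h3
  set Y := ((k : ℝ) / m) ^ ε with hY
  have hY0 : 0 ≤ Y := by positivity
  have hn0 : (0 : ℝ) ≤ n := Nat.cast_nonneg _
  have he0 : (0 : ℝ) ≤ emax k n := Nat.cast_nonneg _
  have h4 : (k : ℝ) * emax k n ≤ k * (416 * C * Y * emax m n) := by
    calc (k : ℝ) * emax k n ≤ ((k : ℝ) + 1) * emax k n := by nlinarith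
      _ ≤ 52 * n * hmax (2 * k) := h1
      _ ≤ 52 * n * (C * ((k : ℝ) / m * Y) * hmax (2 * m)) :=
          mul_le_mul_of_nonneg_left h3 (by positivity)
      _ = 52 * C * ((k : ℝ) / m * Y) * (n * hmax (2 * m)) := by ring
      _ ≤ 52 * C * ((k : ℝ) / m * Y) * (8 * m * emax m n) :=
          mul_le_mul_of_nonneg_left h2 (by positivity)
      _ = k * (416 * C * Y * emax m n) := by field_simp; ring
  exact le_of_mul_le_mul_left h4 hk'

end Vale.Agent.N065
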