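import Vale.Agent.N065.Clu
import Vale.Agent.N065.Upper
import Vale.Agent.P065.R2.H841.Lim.Lk

/-!
# P065: point sets with many `i`-sets in a band of consecutive values of `i` (helper51)
-/

set_option autoImplicit false

namespace Vale.Agent.N065

open Finset Vale.Agent.P065 Vale.Agent.P065.UB Vale.Agent.P065.H882
open Vale.Agent.P065.U.H792.Trans Vale.Agent.P065.R2.H841

theorem Lk_lower {t m : ℕ} (hm : 2 * (t + 1) ≤ m) :
    m * hmax (2 * (t + 1)) ≤ 32 * (t + 1) * Lk t m := by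
  have h1 := emax_lower2 (k := t + 1) (n := m) (by omega) hm
  have h2 := emax_le m t (by omega) (Lk t m) (by positivity) (by
    intro P hP hc
    exact_mod_cast le_Lk' hP t hc.le)
  have h3 : emax (t + 1) m ≤ 2 * Lk t m + 2 := by exact_mod_cast h2
  obtain ⟨P, hP, hc, hw⟩ := hmax_witness (k := t + 1) (by omega)
  have h4 := le_Lk' hP t (n := m) (by omega)
  have h5 := one_le_hmax (k := t + 1) (by omega)
  rw [Nat.add_sub_cancel] at hw
  have h6 : emax (t + 1) m ≤ 4 * Lk t m := by omega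
  calc m * hmax (2 * (t + 1)) ≤ 8 * (t + 1) * emax (t + 1) m := h1
    _ ≤ 8 * (t + 1) * (4 * Lk t m) := Nat.mul_le_mul_left _ h6
    _ = 32 * (t + 1) * Lk t m := by ring

/-- **lower bound for bands** -/
theorem band_kSets_lower {n j k : ℕ} (hj : 1 ≤ j) (hjk : j ≤ k) (hn : 2 * k ≤ n) :
    ∃ P : Finset (ℝ × ℝ), #P = n ∧ GenPos P ∧
      n * j * hmax (2 * (k / j)) ≤ 6144 * (k / j) * ∑ i ∈ Ioc (k - j) k, kSetNumber P i := by
  obtain ⟨w, hw1, hw2, hw3⟩ : ∃ w, 1 ≤ w ∧ 3 * w ≤ j + 2 ∧ j ≤ 3 * w := ⟨(j + 2) / 3, by omega,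
    by omega, by omega⟩
  obtain ⟨t, ht1, ht2⟩ : ∃ t, k - j ≤ w * t ∧ w * t + 1 ≤ k - j + w := by
    refine ⟨(k - j + w - 1) / w, ?_, ?_⟩
    · have h1 := Nat.div_add_mod (k - j + w - 1) w
      have h2 := Nat.mod_lt (k - j + w - 1) (show 0 < w by omega)
      omega
    · have h1 := Nat.mul_div_le (k - j + w - 1) w
      omega
  have hwt : w * (t + 1) = w * t + w := by ring
  have hm : 2 * (t + 1) ≤ n / w := by
    rw [Nat.le_div_iff_mul_le (by omega)]
    have : 2 * (t + 1) * w = 2 * (w * t + w) := by ring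
    omega
  have hmn : w * (n / w) ≤ n := Nat.mul_div_le n w
  have hnm : n ≤ 2 * (w * (n / w)) := by
    have h1 := Nat.div_add_mod n w
    have h2 := Nat.mod_lt n (show 0 < w by omega)
    have h3 : w * 1 ≤ w * (n / w) := Nat.mul_le_mul_left _ (by omega)
    omega
  have hs1 : 1 ≤ k / j := (Nat.one_le_div_iff (by omega)).2 hjk
  have hst : k / j ≤ t + 1 := by
    apply Nat.div_le_of_le_mul
    have h1 : w * t ≤ j * t := Nat.mul_le_mul_right _ (by omega)
    have h2 : j * (t + 1) = j * t + j := by ring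
    omega
  set m := n / w with hmdef
  set s := k / j with hs
  obtain ⟨Q, hQ, hcQ, hE⟩ := Lk_wit t m
  obtain ⟨P0, hP0, hc0, hB⟩ := band_lower hQ t hw1
  obtain ⟨P, hP, hc, hsub⟩ := pad hP0 (n - #P0)
  rw [hcQ] at hc0
  refine ⟨P, by omega, genPos_of_good hP, ?_⟩
  have h1 : #(Bd P0 (w * t) (w * t + (2 * w - 1))) ≤ #(Bd P (k - j) k) := by
    apply card_le_card
    intro e he
    obtain ⟨i, hi1, hi2, hi⟩ := mem_Bd.1 he
    exact mem_Bd.2 ⟨i, by omega, by omega, hsub i hi⟩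
  have h2 : #(Bd P (k - j) k) ≤ ∑ i ∈ Ioc (k - j) k, kSetNumber P i := by
    rw [sum_Ioc_shift, card_Bd]
    exact sum_le_sum fun i _ => ed_le_kSet hP i
  have h3 : w ^ 2 * Lk t m ≤ ∑ i ∈ Ioc (k - j) k, kSetNumber P i := by
    rw [← hE]
    exact hB.trans (h1.trans h2)
  have h4 := Lk_lower hm
  have h5 : (t + 1) * hmax (2 * s) ≤ 32 * s * hmax (2 * (t + 1)) :=
    (Nat.mul_le_mul_right _ (Nat.le_add_right _ s)).trans (hmax_ratio hs1 hst)
  have h6 : m * hmax (2 * s) ≤ 1024 * s * Lk t m := by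
    apply Nat.le_of_mul_le_mul_left _ (Nat.succ_pos t)
    calc (t + 1) * (m * hmax (2 * s)) = m * ((t + 1) * hmax (2 * s)) := by ring
      _ ≤ m * (32 * s * hmax (2 * (t + 1))) := Nat.mul_le_mul_left _ h5
      _ = 32 * s * (m * hmax (2 * (t + 1))) := by ring
      _ ≤ 32 * s * (32 * (t + 1) * Lk t m) := Nat.mul_le_mul_left _ h4
      _ = (t + 1) * (1024 * s * Lk t m) := by ring
  calc n * j * hmax (2 * s) ≤ 2 * (w * m) * (3 * w) * hmax (2 * s) :=
        Nat.mul_le_mul_right _ (Nat.mul_le_mul hnm hw3)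
    _ = 6 * w ^ 2 * (m * hmax (2 * s)) := by ring
    _ ≤ 6 * w ^ 2 * (1024 * s * Lk t m) := Nat.mul_le_mul_left _ h6
    _ = 6144 * s * (w ^ 2 * Lk t m) := by ring
    _ ≤ _ := Nat.mul_le_mul_left _ h3

end Vale.Agent.N065
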