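import Vale.Agent.N065.Lower
import Vale.Agent.P065.H859.Final

/-!
# P065: the bounds in terms of `h(n)` and `e_k(n)` (helper51)
-/

set_option autoImplicit false

namespace Vale.Agent.N065

open Finset Vale.Agent.P065 Vale.Agent.P065.UB Vale.Agent.P065.H859 Vale.Agent.P065.R2.H841

theorem hmax_wit (n : ℕ) : ∃ P : Finset (ℝ × ℝ), #P = n ∧ GenPos P ∧ halvingNumber P = hmax n := by
  classical
  have hne : {m | ∃ P : Finset (ℝ × ℝ), P.card = n ∧ GenPos P ∧ halvingNumber P = m}.Nonempty :=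
    ⟨_, (range n).image par, by rw [card_image_of_injective _ par_inj, card_range],
      genPos_of_good (good_par _), rfl⟩
  exact Nat.sSup_mem hne (bddAbove_hmax n)

theorem emax_wit (k n : ℕ) :
    ∃ P : Finset (ℝ × ℝ), #P = n ∧ GenPos P ∧ kSetNumber P k = emax k n := by
  classical
  have hne : {m | ∃ P : Finset (ℝ × ℝ), P.card = n ∧ GenPos P ∧ kSetNumber P k = m}.Nonempty :=
    ⟨_, (range n).image par, by rw [card_image_of_injective _ par_inj, card_range],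
      genPos_of_good (good_par _), rfl⟩
  exact Nat.sSup_mem hne (bddAbove_emax k n)

theorem hmax_upper (hβ : beta ≤ 1) {ε : ℝ} (hε : 0 < ε) :
    ∃ C : ℝ, ∀ n : ℕ, (hmax n : ℝ) ≤ C * (n : ℝ) ^ (1 + ε) := by
  obtain ⟨C, h⟩ := (final_of_beta hβ).1 ε hε
  refine ⟨C, fun n => ?_⟩
  obtain ⟨P, h1, h2, h3⟩ := hmax_wit n
  rw [← h3, ← h1]
  exact h P h2

theorem emax_upper' (hβ : beta ≤ 1) {ε : ℝ} (hε : 0 < ε) :
    ∃ C : ℝ, ∀ k n : ℕ, 1 ≤ k → 2 * k ≤ n → (emax k n : ℝ) ≤ C * n * (k : ℝ) ^ ε := by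
  obtain ⟨C, h⟩ := (final_of_beta hβ).2 ε hε
  refine ⟨C, fun k n hk hn => ?_⟩
  obtain ⟨P, h1, h2, h3⟩ := emax_wit k n
  rw [← h3, ← h1]
  exact h P k h2 hk (by omega)

theorem scale_both (hβ : beta ≤ 1) {ε : ℝ} (hε : 0 < ε) : ∃ C : ℝ, ∀ m k : ℕ, 1 ≤ m → m ≤ k →
    (hmax (2 * k) : ℝ) ≤ C * ((k : ℝ) / m) ^ (1 + ε) * hmax (2 * m) ∧
    ∀ n : ℕ, 2 * k ≤ n → (emax k n : ℝ) ≤ C * ((k : ℝ) / m) ^ ε * emax m n := by
  obtain ⟨C, -, h⟩ := hmax_scale hβ hε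
  obtain ⟨C', -, h'⟩ := emax_scale hβ hε
  refine ⟨max C C', fun m k hm hmk => ⟨(h m k hm hmk).trans ?_, fun n hn =>
    (h' m k n hm hmk hn).trans ?_⟩⟩
  · gcongr
    exact le_max_left _ _
  · gcongr
    exact le_max_right _ _

end Vale.Agent.N065
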